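import Vale.Agent.P318.R2.H202.GrassDefs

open Finset Module

namespace Vale.Agent.P318.R2.H202.Grass

/-- Subspaces of every intermediate dimension. -/
theorem exists_mid {F E : Type*} [Field F] [AddCommGroup E] [Module F E] [FiniteDimensional F E]
    (J0 K : Submodule F E) (hJ : J0 ≤ K) (d : ℕ) (hd : finrank F J0 + d ≤ finrank F K) :
    ∃ S : Submodule F E, J0 ≤ S ∧ S ≤ K ∧ finrank F S = finrank F J0 + d := by
  induction d with
  | zero => exact ⟨J0, le_rfl, hJ, rfl⟩
  | succ d ih =>
    obtain ⟨S, h1, h2, h3⟩ := ih (by omega)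
    have hne : ¬ K ≤ S := by
      intro h
      have := Submodule.finrank_mono h
      omega
    obtain ⟨v, hvK, hvS⟩ := Set.not_subset.1 hne
    refine ⟨S ⊔ Submodule.span F {v}, h1.trans le_sup_left, sup_le h2 ?_, ?_⟩
    · rw [Submodule.span_singleton_le_iff_mem]
      exact hvK
    · have hv0 : v ≠ 0 := by
        rintro rfl
        exact hvS S.zero_mem
      have hinf : S ⊓ Submodule.span F {v} = ⊥ := by
        rw [eq_bot_iff]
        rintro x ⟨hxS, hxv⟩
        obtain ⟨c, rfl⟩ := Submodule.mem_span_singleton.1 hxv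
        rcases eq_or_ne c 0 with rfl | hc
        · simp
        · exfalso
          apply hvS
          have := S.smul_mem c⁻¹ hxS
          rwa [smul_smul, inv_mul_cancel₀ hc, one_smul] at this
      have h4 := Submodule.finrank_sup_add_finrank_inf_eq S (Submodule.span F {v})
      rw [hinf, finrank_bot, finrank_span_singleton hv0] at h4
      omega

variable {F E : Type*} [Field F] [Fintype F] [AddCommGroup E] [Module F E] [Fintype E]
  [Fintype (Submodule F E)]

variable {j : ℕ} {hh : F → ℝ} {p q : E →ₗ[F] (Fin j → F)}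

-- P3c
open Classical in
theorem gg_ne (h0 : hh 0 ≠ 0) (hpq : ∀ u v, ∃ w, p w = u ∧ q w = v) (k : ℕ) (hjk : j ≤ k)
    (hkn : k + j ≤ finrank F E) :
    ∃ S : Submodule F E, finrank F S = k ∧
      ∑ J ∈ univ.filter (fun J : Submodule F E => finrank F J = j ∧ J ≤ S), gg hh p q J ≠ 0 := by
  have : FiniteDimensional F E := inferInstance
  -- a section with values in the kernel of `q`
  have hsurj : Function.Surjective (p.domRestrict (LinearMap.ker q)) := by
    intro u
    obtain ⟨w, hw, hw'⟩ := hpq u 0
    exact ⟨⟨w, hw'⟩, hw⟩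
  obtain ⟨s, hs⟩ := LinearMap.exists_rightInverse_of_surjective _ (LinearMap.range_eq_top.2 hsurj)
  set t : (Fin j → F) →ₗ[F] E := (LinearMap.ker q).subtype ∘ₗ s with ht
  have hpt : ∀ u, p (t u) = u := by
    intro u
    have := LinearMap.congr_fun hs u
    exact this
  have hqt : ∀ u, q (t u) = 0 := fun u => (s u).2
  have hinj : Function.Injective t := by
    intro u v huv
    rw [← hpt u, ← hpt v, huv]
  set J0 : Submodule F E := LinearMap.range t with hJ0
  have hfJ0 : finrank F J0 = j := by
    rw [hJ0, LinearMap.finrank_range_of_inj hinj]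
    simp
  have hJ0q : J0 ≤ LinearMap.ker q := by
    rintro _ ⟨u, rfl⟩
    exact hqt u
  have hqs : LinearMap.range q = ⊤ := by
    rw [LinearMap.range_eq_top]
    intro v
    obtain ⟨w, _, hw⟩ := hpq 0 v
    exact ⟨w, hw⟩
  have hker : finrank F (LinearMap.ker q) + j = finrank F E := by
    have h1 := LinearMap.finrank_range_add_finrank_ker q
    rw [hqs, finrank_top] at h1
    simp only [Module.finrank_fin_fun] at h1
    omega
  obtain ⟨S, hS1, hS2, hS3⟩ := exists_mid J0 (LinearMap.ker q) hJ0q (k - j) (by omega)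
  refine ⟨S, by omega, ?_⟩
  have hval : ∀ J ∈ univ.filter (fun J : Submodule F E => finrank F J = j ∧ J ≤ S),
      gg hh p q J = if Function.Bijective (p.domRestrict J) then hh 0 else 0 := by
    intro J hJ
    have hJS : J ≤ S := (Finset.mem_filter.1 hJ).2.2
    have hq0 : q.domRestrict J = 0 := by
      ext x
      have : q (x : E) = 0 := hS2 (hJS x.2)
      simp [this]
    unfold gg
    split_ifs with h
    · rw [hq0, LinearMap.zero_comp, map_zero]
    · rfl
  rw [Finset.sum_congr rfl hval, ← Finset.sum_filter, Finset.sum_const, nsmul_eq_mul]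
  refine mul_ne_zero ?_ h0
  have hmem : J0 ∈ (univ.filter (fun J : Submodule F E => finrank F J = j ∧ J ≤ S)).filter
      (fun J => Function.Bijective (p.domRestrict J)) := by
    refine Finset.mem_filter.2 ⟨Finset.mem_filter.2 ⟨Finset.mem_univ _, hfJ0, hS1⟩, ?_, ?_⟩
    · rintro ⟨_, u, rfl⟩ ⟨_, v, rfl⟩ huv
      have h1 : p (t u) = p (t v) := huv
      rw [hpt, hpt] at h1
      subst h1
      rfl
    · intro u
      exact ⟨⟨t u, u, rfl⟩, hpt u⟩
  exact Nat.cast_ne_zero.2 (Finset.card_ne_zero.2 ⟨J0, hmem⟩)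

end Vale.Agent.P318.R2.H202.Grass
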