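import Mathlib

set_option autoImplicit false

namespace Vale.Agent.P318.R2.H379

/-- Four pieces of `E` adapted to two subspaces `S`, `T`. -/
theorem pieces {F E : Type*} [Field F] [AddCommGroup E] [Module F E] [FiniteDimensional F E]
    (S T : Submodule F E) :
    ∃ A B C : Submodule F E, (S ⊓ T) ⊔ A = S ∧ (S ⊓ T) ⊔ B = T ∧ (S ⊔ T) ⊔ C = ⊤ ∧
      Module.finrank F (S ⊓ T : Submodule F E) + Module.finrank F A = Module.finrank F S ∧
      Module.finrank F (S ⊓ T : Submodule F E) + Module.finrank F B = Module.finrank F T ∧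
      Module.finrank F (S ⊔ T : Submodule F E) + Module.finrank F C = Module.finrank F E := by
  obtain ⟨D, hD⟩ := exists_isCompl (S ⊓ T)
  obtain ⟨C, hC⟩ := exists_isCompl (S ⊔ T)
  have key : ∀ X : Submodule F E, S ⊓ T ≤ X → (S ⊓ T) ⊔ (D ⊓ X) = X ∧
      Module.finrank F (S ⊓ T : Submodule F E) + Module.finrank F (D ⊓ X : Submodule F E) =
        Module.finrank F X := by
    intro X hX
    have h1 : (S ⊓ T) ⊔ (D ⊓ X) = X := by
      rw [← sup_inf_assoc_of_le D hX, hD.sup_eq_top, top_inf_eq]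
    have h2 : (S ⊓ T) ⊓ (D ⊓ X) = ⊥ := by
      rw [← inf_assoc, hD.inf_eq_bot, bot_inf_eq]
    refine ⟨h1, ?_⟩
    have h3 := Submodule.finrank_sup_add_finrank_inf_eq (S ⊓ T) (D ⊓ X)
    rw [h1, h2, finrank_bot, add_zero] at h3
    exact h3.symm
  refine ⟨D ⊓ S, D ⊓ T, C, (key S inf_le_left).1, (key T inf_le_right).1, hC.sup_eq_top,
    (key S inf_le_left).2, (key T inf_le_right).2, ?_⟩
  have h3 := Submodule.finrank_sup_add_finrank_inf_eq (S ⊔ T) C
  rw [hC.sup_eq_top, hC.inf_eq_bot, finrank_bot, add_zero, finrank_top] at h3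
  exact h3.symm

/-- The sum map of four subspaces. -/
def sumMap {F E : Type*} [Field F] [AddCommGroup E] [Module F E] (I A B C : Submodule F E) :
    ((I × A) × (B × C)) →ₗ[F] E :=
  (I.subtype.coprod A.subtype).coprod (B.subtype.coprod C.subtype)

theorem sumMap_apply {F E : Type*} [Field F] [AddCommGroup E] [Module F E]
    (I A B C : Submodule F E) (x : (I × A) × (B × C)) :
    sumMap I A B C x = (x.1.1 : E) + x.1.2 + (x.2.1 + x.2.2) := by
  simp [sumMap]

theorem sub_trans {F E : Type*} [Field F] [AddCommGroup E] [Module F E] [FiniteDimensional F E]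
    (S T S' T' : Submodule F E) (h1 : Module.finrank F S = Module.finrank F S')
    (h2 : Module.finrank F T = Module.finrank F T')
    (h3 : Module.finrank F (S ⊓ T : Submodule F E) = Module.finrank F (S' ⊓ T' : Submodule F E)) :
    ∃ g : E ≃ₗ[F] E, S.map g.toLinearMap = S' ∧ T.map g.toLinearMap = T' := by
  -- the sum map is bijective
  have bij : ∀ (S T A B C : Submodule F E), (S ⊓ T) ⊔ A = S → (S ⊓ T) ⊔ B = T →
      (S ⊔ T) ⊔ C = ⊤ →
      Module.finrank F (S ⊓ T : Submodule F E) + Module.finrank F A = Module.finrank F S →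
      Module.finrank F (S ⊓ T : Submodule F E) + Module.finrank F B = Module.finrank F T →
      Module.finrank F (S ⊔ T : Submodule F E) + Module.finrank F C = Module.finrank F E →
      Function.Bijective (sumMap (S ⊓ T) A B C) := by
    intro S T A B C hA hB hC fA fB fC
    have hsurj : Function.Surjective (sumMap (S ⊓ T) A B C) := by
      rw [← LinearMap.range_eq_top, eq_top_iff, ← hC]
      have mI : S ⊓ T ≤ LinearMap.range (sumMap (S ⊓ T) A B C) := by
        intro x hx
        exact ⟨((⟨x, hx⟩, 0), (0, 0)), by simp [sumMap_apply]⟩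
      have mA : A ≤ LinearMap.range (sumMap (S ⊓ T) A B C) := by
        intro x hx
        exact ⟨((0, ⟨x, hx⟩), (0, 0)), by simp [sumMap_apply]⟩
      have mB : B ≤ LinearMap.range (sumMap (S ⊓ T) A B C) := by
        intro x hx
        exact ⟨((0, 0), (⟨x, hx⟩, 0)), by simp [sumMap_apply]⟩
      have mC : C ≤ LinearMap.range (sumMap (S ⊓ T) A B C) := by
        intro x hx
        exact ⟨((0, 0), (0, ⟨x, hx⟩)), by simp [sumMap_apply]⟩
      have mS : S ≤ LinearMap.range (sumMap (S ⊓ T) A B C) := by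
        calc S = (S ⊓ T) ⊔ A := hA.symm
          _ ≤ _ := sup_le mI mA
      have mT : T ≤ LinearMap.range (sumMap (S ⊓ T) A B C) := by
        calc T = (S ⊓ T) ⊔ B := hB.symm
          _ ≤ _ := sup_le mI mB
      exact sup_le (sup_le mS mT) mC
    have hdim : Module.finrank F (((S ⊓ T : Submodule F E) × A) × (B × C)) =
        Module.finrank F E := by
      rw [Module.finrank_prod, Module.finrank_prod, Module.finrank_prod]
      have h4 := Submodule.finrank_sup_add_finrank_inf_eq S T
      omega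
    exact ⟨(LinearMap.injective_iff_surjective_of_finrank_eq_finrank hdim).2 hsurj, hsurj⟩
  obtain ⟨A, B, C, hA, hB, hC, fA, fB, fC⟩ := pieces S T
  obtain ⟨A', B', C', hA', hB', hC', fA', fB', fC'⟩ := pieces S' T'
  have b1 := bij S T A B C hA hB hC fA fB fC
  have b2 := bij S' T' A' B' C' hA' hB' hC' fA' fB' fC'
  have s1 := Submodule.finrank_sup_add_finrank_inf_eq S T
  have s2 := Submodule.finrank_sup_add_finrank_inf_eq S' T'
  have eA : Module.finrank F A = Module.finrank F A' := by omega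
  have eB : Module.finrank F B = Module.finrank F B' := by omega
  have eC : Module.finrank F C = Module.finrank F C' := by omega
  set φ := LinearEquiv.ofBijective _ b1 with hφ
  set φ' := LinearEquiv.ofBijective _ b2 with hφ'
  set uI := LinearEquiv.ofFinrankEq (S ⊓ T : Submodule F E) (S' ⊓ T' : Submodule F E) h3
  set uA := LinearEquiv.ofFinrankEq A A' eA
  set uB := LinearEquiv.ofFinrankEq B B' eB
  set uC := LinearEquiv.ofFinrankEq C C' eC
  set g : E ≃ₗ[F] E := (φ.symm.trans ((uI.prodCongr uA).prodCongr (uB.prodCongr uC))).trans φ'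
    with hg
  have hval : ∀ x : ((S ⊓ T : Submodule F E) × A) × (B × C),
      g ((x.1.1 : E) + x.1.2 + (x.2.1 + x.2.2)) =
        (uI x.1.1 : E) + uA x.1.2 + (uB x.2.1 + uC x.2.2) := by
    intro x
    have e1 : φ x = (x.1.1 : E) + x.1.2 + (x.2.1 + x.2.2) := by
      rw [hφ, LinearEquiv.ofBijective_apply, sumMap_apply]
    rw [← e1, hg, LinearEquiv.trans_apply, LinearEquiv.trans_apply, LinearEquiv.symm_apply_apply,
      hφ', LinearEquiv.ofBijective_apply, sumMap_apply]
    rfl
  refine ⟨g, ?_, ?_⟩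
  · apply Submodule.eq_of_le_of_finrank_eq
    · rintro _ ⟨s, hs, rfl⟩
      have hs' : s ∈ (S ⊓ T) ⊔ A := by rw [hA]; exact hs
      obtain ⟨i, hi, a, ha, rfl⟩ := Submodule.mem_sup.1 hs'
      have h5 := hval ((⟨i, hi⟩, ⟨a, ha⟩), (0, 0))
      simp only [ZeroMemClass.coe_zero, add_zero, map_zero] at h5
      show g (i + a) ∈ S'
      rw [h5]
      refine S'.add_mem ?_ ?_
      · exact (inf_le_left : S' ⊓ T' ≤ S') (uI ⟨i, hi⟩).2
      · rw [← hA']
        exact (le_sup_right : A' ≤ (S' ⊓ T') ⊔ A') (uA ⟨a, ha⟩).2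
    · rw [← h1]
      exact LinearEquiv.finrank_map_eq g S
  · apply Submodule.eq_of_le_of_finrank_eq
    · rintro _ ⟨s, hs, rfl⟩
      have hs' : s ∈ (S ⊓ T) ⊔ B := by rw [hB]; exact hs
      obtain ⟨i, hi, a, ha, rfl⟩ := Submodule.mem_sup.1 hs'
      have h5 := hval ((⟨i, hi⟩, 0), (⟨a, ha⟩, 0))
      simp only [ZeroMemClass.coe_zero, add_zero, map_zero] at h5
      show g (i + a) ∈ T'
      rw [h5]
      refine T'.add_mem ?_ ?_
      · exact (inf_le_right : S' ⊓ T' ≤ T') (uI ⟨i, hi⟩).2
      · rw [← hB']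
        exact (le_sup_right : B' ≤ (S' ⊓ T') ⊔ B') (uB ⟨a, ha⟩).2
    · rw [← h2]
      exact LinearEquiv.finrank_map_eq g T

end Vale.Agent.P318.R2.H379
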